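import Vale.Agent.P305EV.Lev

/-!
# The event: one pass over the levels
-/

namespace Vale.Agent.P305EV

open Vale.Agent.P305E

/-- The event. The items `zs` become bad, the vertices `T` are touched at all levels `< n`, the
items `E` are appended to all pending lists; all consequences are drawn. The result contains the
new dynamic data, the new flags `bad` and the list `bd` of the newly bad items. -/
def event (n : ℕ) (tb : Arr Tb) (dy : Arr Dy) (bad : Arr Bool) (zs T E : List ℕ) :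
    M (Arr Dy × Ps) := do
  let r ← mark bad zs
  iterM (fun (s : Arr Dy × Ps) j => lev (tb.get j) (s.1.get j) s.2 >>= fun o =>
    pure (s.1.set j o.1, o.2)) (dy, ⟨r.1, r.2, T, E⟩) n

@[fun_prop] theorem impl_event {α : Type} [Rep α] {n : α → ℕ} {tb : α → Arr Tb} {dy : α → Arr Dy}
    {bad : α → Arr Bool} {zs T E : α → List ℕ} (h1 : Pure n) (h2 : Pure tb) (h3 : Pure dy)
    (h4 : Pure bad) (h5 : Pure zs) (h6 : Pure T) (h7 : Pure E) :
    Impl fun x => event (n x) (tb x) (dy x) (bad x) (zs x) (T x) (E x) := by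
  unfold event
  fun_prop

/-- The vertex `u` is touched at a level: all clusters that contain it are broken. -/
def Tch (t : Tb) (d : Dy) (u : ℕ) : Prop := ∀ C ∈ t.cls.get u, d.brk.get C = true

/-- Items created at a level do not occur in the tables of the levels below. -/
def Dir (n : ℕ) (tb : Arr Tb) : Prop :=
  ∀ i < n, ∀ y z, z ∈ (tb.get i).par.get y → ∀ j ≤ i, (tb.get j).par.get z = [] ∧
    (j < i → (tb.get j).inv.get z = [] ∧ (tb.get j).tl.get z = [])

/-- The effect of an event on the levels below `k`. -/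
structure EvOK (k : ℕ) (tb : Arr Tb) (dy : Arr Dy) (bad : Arr Bool) (zs T E : List ℕ)
    (dy' : Arr Dy) (s : Ps) : Prop where
  out : ∀ j, k ≤ j → dy'.get j = dy.get j
  bad_iff : ∀ z, s.bad.get z = true ↔ bad.get z = true ∨ z ∈ s.bd
  nodup : s.bd.Nodup
  fresh : ∀ z ∈ s.bd, bad.get z = false
  zs_bad : ∀ z ∈ zs, s.bad.get z = true
  orig : ∀ z ∈ s.bd, z ∈ zs ∨ ∃ j < k, ∃ y ∈ s.bd, z ∈ (tb.get j).par.get y
  brk : ∀ j C, (dy.get j).brk.get C = true → (dy'.get j).brk.get C = true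
  fired : ∀ j o, (dy.get j).fired.get o = true → (dy'.get j).fired.get o = true
  /-- pending lists: a sublist of the emission is put in front -/
  pend : ∀ j < k, ∃ new, (dy'.get j).pend = new ++ (dy.get j).pend ∧
    (dy'.get j).cnt = (dy.get j).cnt + new.length ∧ new.length ≤ s.em.length ∧
    (∀ z ∈ E, z ∈ new) ∧ ∀ z ∈ new, z ∈ E ∨ ∃ i ≤ j, ∃ o, (dy'.get i).fired.get o = true ∧
      (dy.get i).fired.get o = false ∧ z ∈ (tb.get i).its.get o
  par : ∀ z ∈ s.bd, ∀ j < k, ∀ p ∈ (tb.get j).par.get z, s.bad.get p = true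
  inv : ∀ z ∈ s.bd, ∀ j < k, ∀ o ∈ (tb.get j).inv.get z, (dy'.get j).fired.get o = true
  tl : ∀ z ∈ s.bd, ∀ i < k, ∀ u ∈ (tb.get i).tl.get z, u ∈ s.tc ∧
    ∀ j, i < j → j < k → Tch (tb.get j) (dy'.get j) u
  invC : ∀ j < k, ∀ C, (dy'.get j).brk.get C = true → (dy.get j).brk.get C = false →
    ∀ o ∈ (tb.get j).invC.get C, (dy'.get j).fired.get o = true
  tlC : ∀ i < k, ∀ C, (dy'.get i).brk.get C = true → (dy.get i).brk.get C = false →
    ∀ u ∈ (tb.get i).tlC.get C, u ∈ s.tc ∧ ∀ j, i < j → j < k → Tch (tb.get j) (dy'.get j) u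
  emit : ∀ i < k, ∀ o, (dy'.get i).fired.get o = true → (dy.get i).fired.get o = false →
    ∀ z ∈ (tb.get i).its.get o, z ∈ s.em ∧ ∀ j, i ≤ j → j < k → z ∈ (dy'.get j).pend
  tch : ∀ u ∈ T, u ∈ s.tc ∧ ∀ j < k, Tch (tb.get j) (dy'.get j) u
  em : ∀ z, z ∈ s.em ↔ z ∈ E ∨ ∃ i < k, ∃ o, (dy'.get i).fired.get o = true ∧
    (dy.get i).fired.get o = false ∧ z ∈ (tb.get i).its.get o

theorem EvOK.zero (tb : Arr Tb) (dy : Arr Dy) (bad : Arr Bool) (zs T E : List ℕ) :
    EvOK 0 tb dy bad zs T E dy ⟨(mkF bad zs).1, (mkF bad zs).2, T, E⟩ := by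
  have h := mk_mkF bad zs
  refine ⟨fun _ _ => rfl, h.get', h.nodup, fun z hz => ((h.mem z).1 hz).2,
    fun z hz => (h.get z).2 (Or.inr hz), fun z hz => Or.inl ((h.mem z).1 hz).1, fun _ _ h => h,
    fun _ _ h => h, ?_, ?_, ?_, ?_, ?_, ?_, ?_, ?_, ?_⟩ <;> simp

theorem EvOK.succ {n k : ℕ} {tb : Arr Tb} {dy : Arr Dy} {bad : Arr Bool} {zs T E : List ℕ}
    {dy' : Arr Dy} {s s' : Ps} {d : Dy} (hD : Dir n tb) (hk : k < n)
    (h : EvOK k tb dy bad zs T E dy' s) (hl : LevOK (tb.get k) (dy'.get k) s d s') :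
    EvOK (k + 1) tb dy bad zs T E (dy'.set k d) s' := by
  have e0 : dy'.get k = dy.get k := h.out k le_rfl
  rw [e0] at hl
  obtain ⟨nb, e1, n1, n2⟩ := hl.bd
  have lo : ∀ j < k, (dy'.set k d).get j = dy'.get j := fun j hj => Arr.get_set_ne _ hj.ne _
  have at_ : (dy'.set k d).get k = d := Arr.get_set_self _ _ _
  have sb : ∀ z ∈ s.bd, z ∈ s'.bd := fun z hz => e1 ▸ List.mem_append_right _ hz
  have st : ∀ u ∈ s.tc, u ∈ s'.tc := fun u hu => (hl.tc u).2 (Or.inl hu)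
  have se : ∀ z ∈ s.em, z ∈ s'.em := fun z hz => (hl.em z).2 (Or.inl hz)
  have tk : ∀ u ∈ s.tc, Tch (tb.get k) d u := fun u hu C hC => (hl.brk C).2 (Or.inr ⟨u, hu, hC⟩)
  have up : ∀ {u i}, (u ∈ s.tc ∧ ∀ j, i < j → j < k → Tch (tb.get j) (dy'.get j) u) →
      u ∈ s'.tc ∧ ∀ j, i < j → j < k + 1 → Tch (tb.get j) ((dy'.set k d).get j) u := by
    intro u i hu
    refine ⟨st u hu.1, fun j h1 h2 => ?_⟩
    rcases Nat.lt_succ_iff_lt_or_eq.1 h2 with h3 | rfl
    · rw [lo j h3]; exact hu.2 j h1 h3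
    · rw [at_]; exact tk u hu.1
  have nbD : ∀ z ∈ nb, ∀ j ≤ k, (tb.get j).par.get z = [] ∧
      (j < k → (tb.get j).inv.get z = [] ∧ (tb.get j).tl.get z = []) := fun z hz => by
    obtain ⟨⟨y, _, hy⟩, _⟩ := (n2 z).1 hz
    exact hD k hk y z hy
  have cs : ∀ z ∈ s'.bd, z ∈ nb ∨ z ∈ s.bd := fun z hz => List.mem_append.1 (e1 ▸ hz)
  have em' : ∀ z, z ∈ s'.em ↔ z ∈ E ∨ ∃ i < k + 1, ∃ o,
      ((dy'.set k d).get i).fired.get o = true ∧ (dy.get i).fired.get o = false ∧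
      z ∈ (tb.get i).its.get o := by
    intro z
    rw [hl.em, h.em]
    constructor
    · rintro ((h1 | ⟨i, hi, o, h1⟩) | ⟨o, h1⟩)
      · exact Or.inl h1
      · exact Or.inr ⟨i, by omega, o, by rwa [lo i hi]⟩
      · exact Or.inr ⟨k, by omega, o, by rwa [at_]⟩
    · rintro (h1 | ⟨i, hi, o, h1⟩)
      · exact Or.inl (Or.inl h1)
      · rcases Nat.lt_succ_iff_lt_or_eq.1 hi with h3 | rfl
        · exact Or.inl (Or.inr ⟨i, h3, o, by rwa [lo i h3] at h1⟩)
        · exact Or.inr ⟨o, by rwa [at_] at h1⟩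
  have ln : s.em.length ≤ s'.em.length := hl.emlen
  refine ⟨fun j hj => ?_, fun z => ?_, ?_, fun z hz => ?_, fun z hz => ?_, fun z hz => ?_,
    fun j C hC => ?_, fun j o ho => ?_, fun j hj => ?_, fun z hz j hj p hp => ?_,
    fun z hz j hj o ho => ?_, fun z hz i hi u hu => ?_, fun j hj C h1 h2 o ho => ?_,
    fun i hi C h1 h2 u hu => ?_, fun i hi o h1 h2 z hz => ?_, fun u hu => ?_, em'⟩
  · rw [Arr.get_set_ne _ (by omega), h.out j (by omega)]
  · rw [hl.bad, e1, List.mem_append, n2, ← or_assoc, or_right_comm, ← h.bad_iff]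
    cases s.bad.get z <;> simp
  · rw [e1]
    refine List.nodup_append.2 ⟨n1, h.nodup, fun a ha b hb e => ?_⟩
    have h1 := ((n2 a).1 ha).2
    rw [e, (h.bad_iff b).2 (Or.inr hb)] at h1
    exact absurd h1 (by simp)
  · rcases cs z hz with h1 | h1
    · have h2 := ((n2 z).1 h1).2
      cases h3 : bad.get z
      · rfl
      · rw [(h.bad_iff z).2 (Or.inl h3)] at h2
        exact absurd h2 (by simp)
    · exact h.fresh z h1
  · exact (hl.bad z).2 (Or.inl (h.zs_bad z hz))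
  · rcases cs z hz with h1 | h1
    · obtain ⟨⟨y, h2, h3⟩, _⟩ := (n2 z).1 h1
      exact Or.inr ⟨k, by omega, y, sb y h2, h3⟩
    · rcases h.orig z h1 with h2 | ⟨j, hj, y, h2, h3⟩
      · exact Or.inl h2
      · exact Or.inr ⟨j, by omega, y, sb y h2, h3⟩
  · by_cases e : j = k
    · subst e; rw [at_]; exact (hl.brk C).2 (Or.inl hC)
    · rw [Arr.get_set_ne _ e]; exact h.brk j C hC
  · by_cases e : j = k
    · subst e; rw [at_]; exact (hl.fired o).2 (Or.inl ho)
    · rw [Arr.get_set_ne _ e]; exact h.fired j o ho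
  · rcases Nat.lt_succ_iff_lt_or_eq.1 hj with h3 | rfl
    · obtain ⟨new, a1, a2, a3, a4, a5⟩ := h.pend j h3
      rw [lo j h3]
      refine ⟨new, a1, a2, a3.trans ln, a4, fun z hz => (a5 z hz).imp_right ?_⟩
      rintro ⟨i, hi, o, h1⟩
      exact ⟨i, hi, o, by rwa [lo i (by omega)]⟩
    · rw [at_]
      refine ⟨s'.em, hl.pend, hl.cnt, le_rfl, fun z hz => (em' z).2 (Or.inl hz),
        fun z hz => ((em' z).1 hz).imp_right ?_⟩
      rintro ⟨i, hi, h1⟩
      exact ⟨i, by omega, h1⟩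
  · rcases cs z hz with h1 | h1
    · rw [(nbD z h1 j (by omega)).1] at hp
      exact absurd hp List.not_mem_nil
    · rcases Nat.lt_succ_iff_lt_or_eq.1 hj with h3 | rfl
      · exact (hl.bad p).2 (Or.inl (h.par z h1 j h3 p hp))
      · exact (hl.bad p).2 (Or.inr ⟨z, h1, hp⟩)
  · rcases Nat.lt_succ_iff_lt_or_eq.1 hj with h3 | rfl
    · rw [lo j h3]
      rcases cs z hz with h1 | h1
      · rw [((nbD z h1 j h3.le).2 h3).1] at ho
        exact absurd ho List.not_mem_nil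
      · exact h.inv z h1 j h3 o ho
    · rw [at_]
      exact (hl.fired o).2 (Or.inr (Or.inl ⟨z, hz, ho⟩))
  · rcases Nat.lt_succ_iff_lt_or_eq.1 hi with h3 | rfl
    · rcases cs z hz with h1 | h1
      · rw [((nbD z h1 i h3.le).2 h3).2] at hu
        exact absurd hu List.not_mem_nil
      · exact up (h.tl z h1 i h3 u hu)
    · exact ⟨(hl.tc u).2 (Or.inr (Or.inl ⟨z, hz, hu⟩)), fun j _ _ => by omega⟩
  · rcases Nat.lt_succ_iff_lt_or_eq.1 hj with h3 | rfl
    · rw [lo j h3] at h1 ⊢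
      exact h.invC j h3 C h1 h2 o ho
    · rw [at_] at h1 ⊢
      exact (hl.fired o).2 (Or.inr (Or.inr ⟨C, h1, h2, ho⟩))
  · rcases Nat.lt_succ_iff_lt_or_eq.1 hi with h3 | rfl
    · rw [lo i h3] at h1
      exact up (h.tlC i h3 C h1 h2 u hu)
    · rw [at_] at h1
      exact ⟨(hl.tc u).2 (Or.inr (Or.inr ⟨C, h1, h2, hu⟩)), fun j _ _ => by omega⟩
  · have hz' : z ∈ s'.em := (em' z).2 (Or.inr ⟨i, hi, o, h1, h2, hz⟩)
    refine ⟨hz', fun j a1 a2 => ?_⟩
    rcases Nat.lt_succ_iff_lt_or_eq.1 a2 with h3 | rfl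
    · rw [lo j h3]
      rw [lo i (by omega)] at h1
      exact (h.emit i (by omega) o h1 h2 z hz).2 j a1 h3
    · rw [at_, hl.pend]
      exact List.mem_append_left _ hz'
  · refine ⟨st u (h.tch u hu).1, fun j hj => ?_⟩
    rcases Nat.lt_succ_iff_lt_or_eq.1 hj with h3 | rfl
    · rw [lo j h3]; exact (h.tch u hu).2 j h3
    · rw [at_]; exact tk u (h.tch u hu).1

/-- The bound for the emission and the time of an event. -/
def evW (n g P a : ℕ) : ℕ := (n + 1) * ((P + 1) ^ 2 * ((g + 1) ^ (2 * n + 2) * a))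

theorem event_tri {c : Cx} {n g P : ℕ} {tb : Arr Tb} {dy : Arr Dy} {bad : Arr Bool}
    {zs T E : List ℕ} (hD : Dir n tb) (ht : ∀ j < n, (tb.get j).Bd g P)
    (hB : ∀ j < n, (dy.get j).cnt + E.length + evW n g P (zs.length + T.length) ≤ c.B) :
    Tri c (event n tb dy bad zs T E) fun r t => EvOK n tb dy bad zs T E r.1 r.2 ∧
      r.2.bd.length + r.2.tc.length ≤ (g + 1) ^ (2 * n) * (zs.length + T.length) ∧
      r.2.em.length ≤ E.length + evW n g P (zs.length + T.length) ∧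
      t ≤ zs.length + n * (2 * E.length + 18 * evW n g P (zs.length + T.length) + 1) := by
  simp only [event, Tri_bind, Tri_mark]
  set a := zs.length + T.length with ha
  set W := (P + 1) ^ 2 * ((g + 1) ^ (2 * n + 2) * a) with hW
  have eW : evW n g P a = n * W + W := by rw [evW]; ring
  refine (Tri.iterM (fun k (r : Arr Dy × Ps) t => EvOK k tb dy bad zs T E r.1 r.2 ∧
    r.2.bd.length + r.2.tc.length ≤ (g + 1) ^ (2 * k) * a ∧ r.2.em.length ≤ E.length + k * W ∧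
    t ≤ k * (2 * E.length + 18 * evW n g P a + 1)) ⟨EvOK.zero _ _ _ _ _ _, ?_, by simp, by simp⟩
    ?_).mono ?_
  · have := (mk_mkF bad zs).len
    simp only [Nat.mul_zero, pow_zero, one_mul]
    omega
  · rintro k r t hk ⟨h1, h2, h3, h4⟩
    have p1 : (g + 1) ^ 2 * ((g + 1) ^ (2 * k) * a) = (g + 1) ^ (2 * (k + 1)) * a := by ring
    have p2 : (g + 1) ^ (2 * (k + 1)) * a ≤ (g + 1) ^ (2 * n + 2) * a :=
      Nat.mul_le_mul_right _ (Nat.pow_le_pow_right (by omega) (by omega))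
    have p3 : (P + 1) ^ 2 * ((g + 1) ^ 2 * ((g + 1) ^ (2 * k) * a)) ≤ W :=
      Nat.mul_le_mul_left _ (p1 ▸ p2)
    have p4 : P ^ 2 * ((g + 1) * ((g + 1) ^ (2 * k) * a)) ≤ W :=
      le_trans (Nat.mul_le_mul (Nat.pow_le_pow_left (by omega) _)
        (Nat.mul_le_mul_right _ (Nat.le_self_pow (by omega) _))) p3
    have p5 : k * W + W ≤ n * W := by
      have := Nat.mul_le_mul_right W (Nat.succ_le_of_lt hk)
      rwa [Nat.succ_mul] at this
    have p6 := hB k hk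
    rw [Tri_bind]
    refine (lev_tri (ht k hk) h2 h3 ?_).mono ?_
    · rw [h1.out k le_rfl]
      omega
    · rintro o t' ⟨g1, g2, g3, g4⟩
      refine ⟨h1.succ hD hk g1, p1 ▸ g2, ?_, ?_⟩
      · rw [Nat.succ_mul]
        exact g3.trans (by omega)
      · rw [Nat.succ_mul]
        omega
  · rintro r t ⟨h1, h2, h3, h4⟩
    exact ⟨h1, h2, by omega, by omega⟩

end Vale.Agent.P305EV
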