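import Vale.Agent.P305EV.Lev
import Vale.Agent.P305Y.Defs

/-!
# The event at one level (tables of `P305Y`)
-/

namespace Vale.Agent.P305EV

open Vale.Agent.P305E Vale.Agent.P305M Vale.Agent.P305Y

/-- The ends of the items of a list. -/
def endsP (it : Arr RA) (l : List ℕ) : M (List ℕ) := do
  let a ← mapP (fun z => (it.get z).1) l
  let b ← mapP (fun z => (it.get z).2.1) l
  appendP a b

@[fun_prop] theorem impl_endsP {α : Type} [Rep α] {it : α → Arr RA} {l : α → List ℕ}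
    (ha : Pure it) (hl : Pure l) : Impl fun x => endsP (it x) (l x) := by
  unfold endsP
  fun_prop

/-- The ends of the items of a list, as a function. -/
def endsF (it : Arr RA) (l : List ℕ) : List ℕ :=
  l.map (fun z => (it.get z).1) ++ l.map fun z => (it.get z).2.1

@[simp] theorem Tri_endsP {c : Cx} (it : Arr RA) (l : List ℕ) (Q : List ℕ → ℕ → Prop) :
    Tri c (endsP it l) Q ↔ Q (endsF it l) (3 * l.length) := by
  simp only [endsP, Tri_bind, Tri_mapP, Tri_appendP, List.length_map, endsF]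
  rw [show l.length + (l.length + l.length) = 3 * l.length by omega]

@[simp] theorem length_endsF (it : Arr RA) (l : List ℕ) : (endsF it l).length = 2 * l.length := by
  simp [endsF]; omega

theorem mem_endsF {it : Arr RA} {l : List ℕ} {u : ℕ} :
    u ∈ endsF it l ↔ ∃ z ∈ l, u = (it.get z).1 ∨ u = (it.get z).2.1 := by
  simp only [endsF, List.mem_append, List.mem_map]
  constructor
  · rintro (⟨z, h, e⟩ | ⟨z, h, e⟩)
    exacts [⟨z, h, Or.inl e.symm⟩, ⟨z, h, Or.inr e.symm⟩]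
  · rintro ⟨z, h, e | e⟩
    exacts [Or.inl ⟨z, h, e.symm⟩, Or.inr ⟨z, h, e.symm⟩]

/-- The event at one level: new flags of the clusters, new pending list, new carried lists. -/
def fire (it : Arr RA) (L : Lvl) (brk : Arr Bool) (pend : List ℕ) (s : Ps) :
    M (Arr Bool × List ℕ × Ps) := do
  let cs ← flat L.2.2.1.1 s.tc
  let rc ← mark brk cs
  let ps ← flat L.2.1.2.2 s.bd
  let rb ← mark s.bad ps
  let bd ← appendP rb.2 s.bd
  let e1 ← flat L.2.1.1 bd
  let e2 ← flat L.2.2.1.2.1 rc.2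
  let e3 ← appendP e2 s.em
  let em ← appendP e1 e3
  let t0 ← endsP it rb.2
  let t1 ← flat L.2.1.2.1 bd
  let t2 ← flat L.2.2.1.2.2 rc.2
  let t3 ← appendP t0 s.tc
  let t4 ← appendP t2 t3
  let tc ← appendP t1 t4
  let pe ← appendP em pend
  pure (rc.1, pe, ⟨rb.1, bd, tc, em⟩)

@[fun_prop] theorem impl_fire :
    Impl fun p : Arr RA × Lvl × Arr Bool × List ℕ × Ps =>
      fire p.1 p.2.1 p.2.2.1 p.2.2.2.1 p.2.2.2.2 := by
  unfold fire
  fun_prop

/-- Bounds for the tables: `g` for the lists that are fed upwards, `P` for the emission. -/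
structure TbB (L : Lvl) (g P : ℕ) : Prop where
  par : ∀ z, (L.par z).length ≤ g
  tl : ∀ z, (L.tl z).length ≤ g
  cls : ∀ z, (L.cls z).length ≤ g
  ctl : ∀ z, (L.ctl z).length ≤ g
  em : ∀ z, (L.em z).length ≤ P
  cem : ∀ z, (L.cem z).length ≤ P

theorem TbB.of_lvlOK {S S' : Sto} {G : List ℕ} {L : Lvl} {κ k γ p : ℕ}
    (h : LvlOK S S' G L κ k γ p) : TbB L γ p :=
  ⟨fun z => (h.par z).1, h.tl, h.cls, h.ctl, fun z => (h.em z).1, fun z => (h.cem z).1⟩

/-- What the event does at one level. -/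
structure FireOK (it : Arr RA) (L : Lvl) (brk : Arr Bool) (pend : List ℕ) (s : Ps)
    (brk' : Arr Bool) (pend' : List ℕ) (s' : Ps) : Prop where
  brk_iff : ∀ C, brk'.get C = true ↔ brk.get C = true ∨ ∃ u ∈ s.tc, C ∈ L.cls u
  bad : ∀ z, s'.bad.get z = true ↔ s.bad.get z = true ∨ ∃ y ∈ s.bd, z ∈ L.par y
  bd : ∃ nb, s'.bd = nb ++ s.bd ∧ nb.Nodup ∧
    (∀ z, z ∈ nb ↔ (∃ y ∈ s.bd, z ∈ L.par y) ∧ s.bad.get z = false) ∧
    ∀ z ∈ nb, (it.get z).1 ∈ s'.tc ∧ (it.get z).2.1 ∈ s'.tc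
  em : ∀ z, z ∈ s'.em ↔ z ∈ s.em ∨ (∃ y ∈ s'.bd, z ∈ L.em y) ∨
    ∃ C, brk'.get C = true ∧ brk.get C = false ∧ z ∈ L.cem C
  tc : ∀ u ∈ s.tc, u ∈ s'.tc
  tl : ∀ z ∈ s'.bd, ∀ u ∈ L.tl z, u ∈ s'.tc
  ctl : ∀ C, brk'.get C = true → brk.get C = false → ∀ u ∈ L.ctl C, u ∈ s'.tc
  pend : pend' = s'.em ++ pend
  emlen : s.em.length ≤ s'.em.length

theorem arith' {g P a e x1 x2 x3 x4 x6 x7 y1 y2 p q w : ℕ} (ha : p + q ≤ a) (he : w ≤ e)
    (l1 : x1 ≤ g * q) (l2 : x2 ≤ g * p) (l3 : x3 ≤ P * (y2 + p)) (l4 : x4 ≤ P * y1)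
    (l6 : x6 ≤ g * (y2 + p)) (l7 : x7 ≤ g * y1) (m1 : y1 ≤ x1) (m2 : y2 ≤ x2) :
    y2 + p + (x6 + (x7 + (2 * y2 + q))) ≤ (g + 2) ^ 2 * a ∧
    x3 + (x4 + w) ≤ e + P * ((g + 2) ^ 2 * a) ∧
    2 * q + 2 * x1 + 2 * p + 2 * x2 + 6 * y2 + 4 * (y2 + p) + 4 * y1 + 3 * x3 + 3 * x4 +
      w + 2 * x6 + 2 * x7 ≤ e + 8 * ((P + 1) * ((g + 2) ^ 2 * a)) := by
  have b0 : x1 + x2 ≤ g * a := by
    have := Nat.mul_le_mul_left g ha
    rw [Nat.mul_add] at this
    omega
  have c0 : g * a + a = (g + 1) * a := by ring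
  have b1 : y1 + (y2 + p) ≤ (g + 1) * a := by omega
  have b2 : x3 + x4 ≤ P * ((g + 1) * a) := by
    have := Nat.mul_le_mul_left P b1
    rw [Nat.mul_add] at this
    omega
  have b4 : x6 + x7 ≤ g * ((g + 1) * a) := by
    have := Nat.mul_le_mul_left g b1
    rw [Nat.mul_add] at this
    omega
  have c1 : g * ((g + 1) * a) + 3 * (g * a) + 4 * a = (g + 2) ^ 2 * a := by ring
  generalize (g + 2) ^ 2 * a = A at *
  generalize (g + 1) * a = A' at *
  have c2 : P * A' ≤ P * A := Nat.mul_le_mul_left _ (by omega)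
  have c4 : (P + 1) * A = P * A + A := by ring
  exact ⟨by omega, by omega, by omega⟩

theorem fire_tri {c : Cx} {it : Arr RA} {L : Lvl} {brk : Arr Bool} {pend : List ℕ} {s : Ps}
    {g P a e : ℕ} (ht : TbB L g P) (ha : s.bd.length + s.tc.length ≤ a) (he : s.em.length ≤ e) :
    Tri c (fire it L brk pend s) fun r tm => FireOK it L brk pend s r.1 r.2.1 r.2.2 ∧
      r.2.2.bd.length + r.2.2.tc.length ≤ (g + 2) ^ 2 * a ∧
      r.2.2.em.length ≤ e + P * ((g + 2) ^ 2 * a) ∧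
      tm ≤ e + 8 * ((P + 1) * ((g + 2) ^ 2 * a)) := by
  simp only [fire, Tri_bind, Tri_flat, Tri_mark, Tri_appendP, Tri_endsP, Tri_pure]
  have hc := mk_mkF brk (s.tc.flatMap L.2.2.1.1.get)
  have hb := mk_mkF s.bad (s.bd.flatMap L.2.1.2.2.get)
  generalize mkF brk (s.tc.flatMap L.2.2.1.1.get) = rc at hc ⊢
  generalize mkF s.bad (s.bd.flatMap L.2.1.2.2.get) = rb at hb ⊢
  have l3 := length_flat_le ht.em (rb.2 ++ s.bd)
  have l6 := length_flat_le ht.tl (rb.2 ++ s.bd)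
  rw [List.length_append] at l3 l6
  obtain ⟨k1, k2, k3⟩ := arith' ha he (length_flat_le ht.cls s.tc) (length_flat_le ht.par s.bd)
    l3 (length_flat_le ht.cem rc.2) l6 (length_flat_le ht.ctl rc.2) hc.len hb.len
  refine ⟨⟨fun C => ?_, fun z => ?_, ⟨rb.2, rfl, hb.nodup, fun z => ?_, fun z hz => ?_⟩,
    fun z => ?_, fun u hu => ?_, fun z hz u hu => ?_, fun C h1 h2 u hu => ?_, rfl, ?_⟩, ?_, ?_, ?_⟩
  · simp only [hc.get, List.mem_flatMap]
  · simp only [hb.get, List.mem_flatMap]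
  · simp only [hb.mem, List.mem_flatMap]
  · simp only [List.mem_append (s := List.flatMap _ _), List.mem_append (s := endsF _ _),
      mem_endsF]
    exact ⟨Or.inr (Or.inr (Or.inl ⟨z, hz, Or.inl rfl⟩)),
      Or.inr (Or.inr (Or.inl ⟨z, hz, Or.inr rfl⟩))⟩
  · simp only [List.mem_append (s := List.flatMap _ _), List.mem_flatMap, hc.new, and_assoc]
    exact or_rotate.trans or_rotate
  · simp [hu]
  · exact List.mem_append_left _ (List.mem_flatMap.2 ⟨z, hz, hu⟩)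
  · exact List.mem_append_right _ (List.mem_append_left _
      (List.mem_flatMap.2 ⟨C, (hc.new C).2 ⟨h1, h2⟩, hu⟩))
  · simp only [List.length_append]
    omega
  · simp only [List.length_append, length_endsF]
    exact k1
  · simp only [List.length_append]
    exact k2
  · simp only [List.length_append, length_endsF]
    refine le_trans (le_of_eq ?_) k3
    clear k1 k2 k3 ha he l3 l6
    change _ = 2 * s.tc.length + 2 * (s.tc.flatMap L.2.2.1.1.get).length + 2 * s.bd.length +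
      2 * (s.bd.flatMap L.2.1.2.2.get).length + 6 * rb.2.length +
      4 * (rb.2.length + s.bd.length) + 4 * rc.2.length +
      3 * ((rb.2 ++ s.bd).flatMap L.2.1.1.get).length +
      3 * (rc.2.flatMap L.2.2.1.2.1.get).length + s.em.length +
      2 * ((rb.2 ++ s.bd).flatMap L.2.1.2.1.get).length +
      2 * (rc.2.flatMap L.2.2.1.2.2.get).length
    omega

end Vale.Agent.P305EV
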