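import Vale.Agent.P305EV.Mark

/-!
# The event at one level

The static tables of a level (`Tb`), its dynamic data (`Dy`) and the three lists that are carried
upwards (`Ps`: newly bad items, vertices to touch, emitted items).
-/

namespace Vale.Agent.P305EV

open Vale.Agent.P305E

/-- Static tables of a level. `par z`: new items of the level that contain the item `z`; `inv z`,
`tl z`: objects and vertices triggered by the item `z`; `cls u`: clusters that contain the vertex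
`u`; `invC`, `tlC`: objects and vertices triggered by a cluster; `its o`: items of an object. -/
structure Tb where
  par : Arr (List ℕ)
  inv : Arr (List ℕ)
  tl : Arr (List ℕ)
  cls : Arr (List ℕ)
  invC : Arr (List ℕ)
  tlC : Arr (List ℕ)
  its : Arr (List ℕ)

/-- Dynamic data of a level: broken clusters, fired objects, pending items and their number. -/
structure Dy where
  brk : Arr Bool
  fired : Arr Bool
  pend : List ℕ
  cnt : ℕ

/-- The state of the pass over the levels. -/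
structure Ps where
  bad : Arr Bool
  bd : List ℕ
  tc : List ℕ
  em : List ℕ

/-- Encoding. -/
def Tb.enc (t : Tb) := (t.par, t.inv, t.tl, t.cls, t.invC, t.tlC, t.its)
instance : Rep Tb := Rep.comap Tb.enc
@[fun_prop] theorem Tb.ppar : Pure Tb.par := Pure.of_comap Tb.enc (h := fun p => p.1) (by fun_prop)
@[fun_prop] theorem Tb.pinv : Pure Tb.inv :=
  Pure.of_comap Tb.enc (h := fun p => p.2.1) (by fun_prop)
@[fun_prop] theorem Tb.ptl : Pure Tb.tl :=
  Pure.of_comap Tb.enc (h := fun p => p.2.2.1) (by fun_prop)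
@[fun_prop] theorem Tb.pcls : Pure Tb.cls :=
  Pure.of_comap Tb.enc (h := fun p => p.2.2.2.1) (by fun_prop)
@[fun_prop] theorem Tb.pinvC : Pure Tb.invC :=
  Pure.of_comap Tb.enc (h := fun p => p.2.2.2.2.1) (by fun_prop)
@[fun_prop] theorem Tb.ptlC : Pure Tb.tlC :=
  Pure.of_comap Tb.enc (h := fun p => p.2.2.2.2.2.1) (by fun_prop)
@[fun_prop] theorem Tb.pits : Pure Tb.its :=
  Pure.of_comap Tb.enc (h := fun p => p.2.2.2.2.2.2) (by fun_prop)
@[fun_prop] theorem Tb.pmk {α : Type} [Rep α] {a b c d e f g : α → Arr (List ℕ)} (ha : Pure a)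
    (hb : Pure b) (hc : Pure c) (hd : Pure d) (he : Pure e) (hf : Pure f) (hg : Pure g) :
    Pure fun x => Tb.mk (a x) (b x) (c x) (d x) (e x) (f x) (g x) :=
  Pure.to_comap Tb.enc (by unfold Tb.enc; fun_prop)

/-- Encoding. -/
def Dy.enc (d : Dy) := (d.brk, d.fired, d.pend, d.cnt)
instance : Rep Dy := Rep.comap Dy.enc
@[fun_prop] theorem Dy.pbrk : Pure Dy.brk := Pure.of_comap Dy.enc (h := fun p => p.1) (by fun_prop)
@[fun_prop] theorem Dy.pfired : Pure Dy.fired :=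
  Pure.of_comap Dy.enc (h := fun p => p.2.1) (by fun_prop)
@[fun_prop] theorem Dy.ppend : Pure Dy.pend :=
  Pure.of_comap Dy.enc (h := fun p => p.2.2.1) (by fun_prop)
@[fun_prop] theorem Dy.pcnt : Pure Dy.cnt :=
  Pure.of_comap Dy.enc (h := fun p => p.2.2.2) (by fun_prop)
@[fun_prop] theorem Dy.pmk {α : Type} [Rep α] {a b : α → Arr Bool} {c : α → List ℕ} {d : α → ℕ}
    (ha : Pure a) (hb : Pure b) (hc : Pure c) (hd : Pure d) :
    Pure fun x => Dy.mk (a x) (b x) (c x) (d x) :=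
  Pure.to_comap Dy.enc (by unfold Dy.enc; fun_prop)

/-- Encoding. -/
def Ps.enc (s : Ps) := (s.bad, s.bd, s.tc, s.em)
instance : Rep Ps := Rep.comap Ps.enc
@[fun_prop] theorem Ps.pbad : Pure Ps.bad := Pure.of_comap Ps.enc (h := fun p => p.1) (by fun_prop)
@[fun_prop] theorem Ps.pbd : Pure Ps.bd := Pure.of_comap Ps.enc (h := fun p => p.2.1) (by fun_prop)
@[fun_prop] theorem Ps.ptc : Pure Ps.tc :=
  Pure.of_comap Ps.enc (h := fun p => p.2.2.1) (by fun_prop)
@[fun_prop] theorem Ps.pem : Pure Ps.em :=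
  Pure.of_comap Ps.enc (h := fun p => p.2.2.2) (by fun_prop)
@[fun_prop] theorem Ps.pmk {α : Type} [Rep α] {a : α → Arr Bool} {b c d : α → List ℕ}
    (ha : Pure a) (hb : Pure b) (hc : Pure c) (hd : Pure d) :
    Pure fun x => Ps.mk (a x) (b x) (c x) (d x) :=
  Pure.to_comap Ps.enc (by unfold Ps.enc; fun_prop)

/-- The event at one level. -/
def lev (t : Tb) (d : Dy) (s : Ps) : M (Dy × Ps) := do
  let cs ← flat t.cls s.tc
  let rc ← mark d.brk cs
  let ps ← flat t.par s.bd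
  let rb ← mark s.bad ps
  let bd ← appendP rb.2 s.bd
  let o1 ← flat t.inv bd
  let o2 ← flat t.invC rc.2
  let os ← appendP o1 o2
  let ro ← mark d.fired os
  let e1 ← flat t.its ro.2
  let em ← appendP e1 s.em
  let t1 ← flat t.tl bd
  let t2 ← flat t.tlC rc.2
  let t3 ← appendP t2 s.tc
  let tc ← appendP t1 t3
  let pe ← appendP em d.pend
  let k ← lenP em
  let cn ← num (d.cnt + k)
  pure (⟨rc.1, ro.1, pe, cn⟩, ⟨rb.1, bd, tc, em⟩)

@[fun_prop] theorem impl_lev : Impl fun p : Tb × Dy × Ps => lev p.1 p.2.1 p.2.2 := by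
  unfold lev
  fun_prop

/-- Bounds for the tables: `g` for the lists that are fed upwards, `P` for the emission. -/
structure Tb.Bd (t : Tb) (g P : ℕ) : Prop where
  par : ∀ z, (t.par.get z).length ≤ g
  tl : ∀ z, (t.tl.get z).length ≤ g
  cls : ∀ z, (t.cls.get z).length ≤ g
  tlC : ∀ z, (t.tlC.get z).length ≤ g
  inv : ∀ z, (t.inv.get z).length ≤ P
  invC : ∀ z, (t.invC.get z).length ≤ P
  its : ∀ z, (t.its.get z).length ≤ P

/-- What the event does at one level. -/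
structure LevOK (t : Tb) (d : Dy) (s : Ps) (d' : Dy) (s' : Ps) : Prop where
  brk : ∀ C, d'.brk.get C = true ↔ d.brk.get C = true ∨ ∃ u ∈ s.tc, C ∈ t.cls.get u
  bad : ∀ z, s'.bad.get z = true ↔ s.bad.get z = true ∨ ∃ y ∈ s.bd, z ∈ t.par.get y
  bd : ∃ nb, s'.bd = nb ++ s.bd ∧ nb.Nodup ∧
    ∀ z, z ∈ nb ↔ (∃ y ∈ s.bd, z ∈ t.par.get y) ∧ s.bad.get z = false
  fired : ∀ o, d'.fired.get o = true ↔ d.fired.get o = true ∨ (∃ z ∈ s'.bd, o ∈ t.inv.get z) ∨
    ∃ C, d'.brk.get C = true ∧ d.brk.get C = false ∧ o ∈ t.invC.get C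
  em : ∀ z, z ∈ s'.em ↔ z ∈ s.em ∨
    ∃ o, d'.fired.get o = true ∧ d.fired.get o = false ∧ z ∈ t.its.get o
  tc : ∀ u, u ∈ s'.tc ↔ u ∈ s.tc ∨ (∃ z ∈ s'.bd, u ∈ t.tl.get z) ∨
    ∃ C, d'.brk.get C = true ∧ d.brk.get C = false ∧ u ∈ t.tlC.get C
  pend : d'.pend = s'.em ++ d.pend
  cnt : d'.cnt = d.cnt + s'.em.length
  emlen : s.em.length ≤ s'.em.length

theorem Mk.new {fl : Arr Bool} {l : List ℕ} {r : Arr Bool × List ℕ} (h : Mk fl l r) (y : ℕ) :
    y ∈ r.2 ↔ r.1.get y = true ∧ fl.get y = false := by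
  rw [h.get, h.mem]
  cases fl.get y <;> simp

theorem arith {g P a e x1 x2 x3 x4 x5 x6 x7 y1 y2 y3 p q w : ℕ} (ha : p + q ≤ a) (he : w ≤ e)
    (l1 : x1 ≤ g * q) (l2 : x2 ≤ g * p) (l3 : x3 ≤ P * (y2 + p)) (l4 : x4 ≤ P * y1)
    (l5 : x5 ≤ P * y3) (l6 : x6 ≤ g * (y2 + p)) (l7 : x7 ≤ g * y1) (m1 : y1 ≤ x1) (m2 : y2 ≤ x2)
    (m3 : y3 ≤ x3 + x4) : y2 + p + (x6 + (x7 + q)) ≤ (g + 1) ^ 2 * a ∧
    x5 + w ≤ e + P ^ 2 * ((g + 1) * a) ∧
    2 * q + 2 * x1 + 2 * p + 2 * x2 + y2 + 4 * (y2 + p) + 4 * y1 + 3 * x3 + 2 * x4 + 2 * y3 +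
      4 * x5 + 2 * w + 2 * x6 + 2 * x7 ≤ 2 * e + 16 * ((P + 1) ^ 2 * ((g + 1) ^ 2 * a)) := by
  have b0 : x1 + x2 ≤ g * a := by
    have := Nat.mul_le_mul_left g ha
    rw [Nat.mul_add] at this
    omega
  have c0 : g * a + a = (g + 1) * a := by ring
  have b1 : y1 + (y2 + p) + q ≤ (g + 1) * a := by omega
  have b1' : y1 + (y2 + p) ≤ (g + 1) * a := by omega
  have b2 : x3 + x4 ≤ P * ((g + 1) * a) := by
    have := Nat.mul_le_mul_left P b1'
    rw [Nat.mul_add] at this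
    omega
  have b3 : x5 ≤ P ^ 2 * ((g + 1) * a) := by
    have := Nat.mul_le_mul_left P (m3.trans b2)
    rw [← Nat.mul_assoc, ← sq] at this
    omega
  have b4 : x6 + x7 ≤ g * ((g + 1) * a) := by
    have := Nat.mul_le_mul_left g b1'
    rw [Nat.mul_add] at this
    omega
  have c1 : g * ((g + 1) * a) + (g + 1) * a = (g + 1) ^ 2 * a := by ring
  generalize (g + 1) ^ 2 * a = A at *
  generalize (g + 1) * a = A' at *
  have c2 : P * A' ≤ P * A := Nat.mul_le_mul_left _ (by omega)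
  have c3 : P ^ 2 * A' ≤ P ^ 2 * A := Nat.mul_le_mul_left _ (by omega)
  have c4 : (P + 1) ^ 2 * A = P ^ 2 * A + 2 * (P * A) + A := by ring
  exact ⟨by omega, by omega, by omega⟩

theorem lev_tri {c : Cx} {t : Tb} {d : Dy} {s : Ps} {g P a e : ℕ} (ht : t.Bd g P)
    (ha : s.bd.length + s.tc.length ≤ a) (he : s.em.length ≤ e)
    (hB : d.cnt + (e + P ^ 2 * ((g + 1) * a)) ≤ c.B) :
    Tri c (lev t d s) fun r tm => LevOK t d s r.1 r.2 ∧
      r.2.bd.length + r.2.tc.length ≤ (g + 1) ^ 2 * a ∧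
      r.2.em.length ≤ e + P ^ 2 * ((g + 1) * a) ∧
      tm ≤ 2 * e + 16 * ((P + 1) ^ 2 * ((g + 1) ^ 2 * a)) := by
  simp only [lev, Tri_bind, Tri_flat, Tri_mark, Tri_appendP, Tri_lenP, Tri_num, Tri_pure]
  have hc := mk_mkF d.brk (s.tc.flatMap t.cls.get)
  have hb := mk_mkF s.bad (s.bd.flatMap t.par.get)
  generalize mkF d.brk (s.tc.flatMap t.cls.get) = rc at hc ⊢
  generalize mkF s.bad (s.bd.flatMap t.par.get) = rb at hb ⊢
  have ho := mk_mkF d.fired ((rb.2 ++ s.bd).flatMap t.inv.get ++ rc.2.flatMap t.invC.get)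
  generalize mkF d.fired ((rb.2 ++ s.bd).flatMap t.inv.get ++ rc.2.flatMap t.invC.get) = ro
    at ho ⊢
  have l1 := length_flat_le ht.cls s.tc
  have l2 := length_flat_le ht.par s.bd
  have l3 := length_flat_le ht.inv (rb.2 ++ s.bd)
  have l4 := length_flat_le ht.invC rc.2
  have l5 := length_flat_le ht.its ro.2
  have l6 := length_flat_le ht.tl (rb.2 ++ s.bd)
  have l7 := length_flat_le ht.tlC rc.2
  have m1 := hc.len
  have m2 := hb.len
  have m3 := ho.len
  have ok : LevOK t d s ⟨rc.1, ro.1, (ro.2.flatMap t.its.get ++ s.em) ++ d.pend,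
      d.cnt + (ro.2.flatMap t.its.get ++ s.em).length⟩ ⟨rb.1, rb.2 ++ s.bd,
      (rb.2 ++ s.bd).flatMap t.tl.get ++ (rc.2.flatMap t.tlC.get ++ s.tc),
      ro.2.flatMap t.its.get ++ s.em⟩ := by
    refine ⟨fun C => ?_, fun z => ?_, ⟨rb.2, rfl, hb.nodup, fun z => ?_⟩, fun o => ?_,
      fun z => ?_, fun u => ?_, rfl, rfl, by simp⟩
    · simp only [hc.get, List.mem_flatMap]
    · simp only [hb.get, List.mem_flatMap]
    · simp only [hb.mem, List.mem_flatMap]
    · simp only [ho.get, List.mem_append (s := List.flatMap _ _), List.mem_flatMap, hc.new,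
        and_assoc]
    · simp only [List.mem_append, List.mem_flatMap, ho.new, and_assoc]
      exact or_comm
    · simp only [List.mem_append (s := List.flatMap _ _), List.mem_flatMap, hc.new, and_assoc]
      exact or_rotate.trans or_rotate
  rw [List.length_append] at l3 l6 m3
  obtain ⟨k1, k2, k3⟩ := arith ha he l1 l2 l3 l4 l5 l6 l7 m1 m2 m3
  clear hc hb ho ht l1 l2 l3 l4 l5 l6 l7 m1 m2 m3
  refine ⟨?_, ?_, ok, ?_, ?_, ?_⟩ <;> clear ok <;> simp only [List.length_append]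
  · omega
  · omega
  · exact k1
  · exact k2
  · refine le_trans ?_ k3
    clear k1 k2 k3 hB ha he
    omega

end Vale.Agent.P305EV
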