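import Vale.Agent.P305EV.Pass

/-!
# The block EVENT
-/

namespace Vale.Agent.P305EV

open Vale.Agent.P305E Vale.Agent.P305M Vale.Agent.P305Q Vale.Agent.P305Y

/-- The invariant survives a pass. -/
theorem si_pass {π : Par} {s s' : St} {zs T E : List ℕ} {q : Ps} (h : SI π s (π.Lm + 1))
    (hp : PsOK (π.Lm + 1) s.dep s.1.1 s.2.2 s.2.1.1 zs T E s'.2.2 q) (hq : s'.2.1.1 = q.bad)
    (hn : s.nx ≤ s'.nx) (hz : ∀ z ∈ zs, z < s.nx)
    (old : ∀ z < s.nx, s'.it z = s.it z ∧ s'.cs z = s.cs z ∧ s'.dep z = s.dep z ∧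
      s'.re z = s.re z)
    (new : ∀ z < s'.nx, s.nx ≤ z → z ∈ E ∧ s'.cs z = [] ∧ s'.re z ≠ none ∧ (s'.it z).1 ∈ T ∧
      (s'.it z).2.1 ∈ T ∧ (s'.it z).1 ≤ π.M 0 ∧ (s'.it z).2.1 ≤ π.M 0 ∧ 1 ≤ (s'.it z).2.2.1 ∧
      (s'.it z).2.2.1 ≤ π.M 0 ∧ (s'.it z).2.2.2.natAbs ≤ π.M 0)
    (hE : ∀ z ∈ E, z < s'.nx ∧ s'.dep z = 0) (fresh : ∀ z, s'.nx ≤ z → s'.re z = none) :
    SI π s' (π.Lm + 1) := by
  have eL : ∀ j, s'.L j = s.L j := fun j => (hp.same j).1
  have eG : ∀ j, s'.G j = s.G j := fun j => (hp.same j).2.1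
  have eR : ∀ j, s'.rem j = s.rem j := fun j => (hp.same j).2.2
  have bi : ∀ z, s'.bad z ↔ s.bad z ∨ z ∈ q.bd := fun z => by
    rw [St.bad, hq]; exact hp.bad_iff z
  have bm : ∀ z, s.bad z → s'.bad z := fun z hb => (bi z).2 (Or.inl hb)
  have bn : ∀ {z}, ¬ s'.bad z → ¬ s.bad z := fun hb a => hb (bm _ a)
  have tm : ∀ j u, s.tch j u → s'.tch j u := fun j u a C hC => hp.brk j C (a C (eL j ▸ hC))
  have gp : ∀ j ≤ π.Lm, ∀ z, z ∈ s.G j ∨ z ∈ (s.L j).P → z < s.nx ∧ s.dep z ≤ j + 1 := by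
    rintro j hj z (a | a)
    · exact ⟨(h.G j hj z a).1, (h.G j hj z a).2.trans (Nat.le_succ j)⟩
    · exact ⟨(h.P j hj z a).1, (h.P j hj z a).2.1.le⟩
  have bl : ∀ z ∈ q.bd, z < s.nx := fun z a => by
    rcases hp.orig z a with b | ⟨j, hj, y, b⟩
    · exact hz z b
    · exact (h.P j (by omega) z (((h.lv j (by omega)).par y).2 z b)).1
  have tr : ∀ {lo em tl}, Trg π s (π.Lm + 1) lo em tl → Trg π s' (π.Lm + 1) lo em tl := by
    rintro lo em tl ⟨l, a1, a2, a3, a4, a5⟩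
    exact ⟨l, a1, a2, fun b z c d => eG l ▸ a3 b z c (bn d),
      fun j b1 b2 b3 z c d => hp.pend j z (a4 j b1 b2 b3 z c (bn d)),
      fun j b1 b2 y c => tm j y (a5 j b1 b2 y c)⟩
  have tn : ∀ {lo em tl}, lo ≤ π.Lm + 1 →
      (∀ z ∈ em, ∀ j < π.Lm + 1, lo ≤ j + 1 → z ∈ s'.pend j) →
      (∀ y ∈ tl, ∀ j < π.Lm + 1, lo ≤ j → s'.tch j y) → Trg π s' (π.Lm + 1) lo em tl :=
    fun a1 a2 a3 => ⟨_, a1, le_rfl, fun b => by omega, fun j b1 b2 _ z c _ => a2 z c j b1 b2,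
      fun j b1 b2 y c => a3 y c j b1 b2⟩
  have cl : ∀ z < s.nx, ∀ c ∈ s.cs z, c.1 < s.nx := fun z a c b => (h.dag z a c b).trans a
  refine ⟨fun j hj => ?_, fun j hj z a => ?_, fun j hj z a => ?_, fun j hj z a => ?_,
    fun z a c b => ?_, fun z a => ?_, fun z a => ?_, fun z a b c => ?_, fun z a b => ?_, fresh,
    fun z a => ?_, fun j hj z a b => ?_, fun j hj z a b => ?_, ?_, fun j hj z a b => ?_,
    fun j hj C a => ?_, fun z a b c => ?_, fun j hj => ?_⟩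
  · rw [eG, eL]
    exact (h.lv j hj).congr (fun z a => (old z (gp j hj z a).1).1)
      fun z a => (old z (h.P j hj z a).1).2.1
  · rw [eG] at a
    obtain ⟨b1, b2⟩ := h.G j hj z a
    exact ⟨by omega, by rwa [(old z b1).2.2.1]⟩
  · rw [eL] at a
    obtain ⟨b1, b2, b3⟩ := h.P j hj z a
    exact ⟨by omega, by rwa [(old z b1).2.2.1], by rwa [(old z b1).2.2.2]⟩
  · have k : ∀ i ≤ j, z < s.nx ∧ s.dep z ≤ i + 1 → z < s'.nx ∧ s'.dep z ≤ j + 1 :=
      fun i hi b => ⟨by omega, by rw [(old z b.1).2.2.1]; omega⟩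
    rcases hp.pend' j z a with b | b | ⟨i, hi, y, b | b⟩
    · exact k j le_rfl (h.pend j hj z b)
    · exact ⟨(hE z b).1, by rw [(hE z b).2]; omega⟩
    · exact k i hi (gp i (by omega) z (((h.lv i (by omega)).em y).2 z b))
    · exact k i hi (gp i (by omega) z (((h.lv i (by omega)).cem y).2 z b))
  · rcases Nat.lt_or_ge z s.nx with d | d
    · rw [(old z d).2.1] at b
      exact h.dag z d c b
    · rw [(new z a d).2.1] at b
      exact absurd b List.not_mem_nil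
  · rcases Nat.lt_or_ge z s.nx with d | d
    · obtain ⟨b1, b2, b3⟩ := h.all z d
      obtain ⟨o1, o2, o3, -⟩ := old z d
      rw [o1, o2, o3, wlen_congr (it := s.it) fun c hc => (old _ (cl z d c hc)).1]
      exact ⟨b1, b2, fun c hc => by rw [(old _ (cl z d c hc)).2.2.1]; exact b3 c hc⟩
    · rw [(new z a d).2.1]
      simp
  · exact lt_of_lt_of_le (((bi z).1 a).elim (h.badlt z) (bl z)) hn
  · rcases Nat.lt_or_ge z s.nx with d | d
    · obtain ⟨j, hj, e⟩ := h.virt z d (bn b) (by rwa [(old z d).2.2.2] at c)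
      exact ⟨j, hj, eL j ▸ e⟩
    · exact absurd c (new z a d).2.2.1
  · rcases Nat.lt_or_ge z s.nx with d | d
    · obtain ⟨-, o2, o3, o4⟩ := old z d
      rw [o2, o3]
      exact h.real z d (by rwa [o4] at b)
    · exact ⟨(new z a d).2.1, (hE z (new z a d).1).2⟩
  · rcases Nat.lt_or_ge z s.nx with d | d
    · obtain ⟨o1, -, o3, -⟩ := old z d
      rw [o1, o3]
      exact h.num z d
    · obtain ⟨n1, -, -, -, -, n2, n3, n4, n5, n6⟩ := new z a d
      rw [(hE z n1).2]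
      exact ⟨n2, n3, n4, n5, n6, Nat.zero_le _⟩
  · rw [eG] at a
    obtain ⟨b1, b2⟩ := h.G j hj z a
    rw [(old z b1).1, eL]
    rcases (bi z).1 b with c | c
    · obtain ⟨c1, c2, c3⟩ := h.B j hj z a c
      exact ⟨tm j _ c1, tm j _ c2, fun y hy => bm y (c3 y hy)⟩
    · exact ⟨(hp.ends z c _ (Or.inl rfl)).2 j (by omega) b2,
        (hp.ends z c _ (Or.inr rfl)).2 j (by omega) b2,
        fun y hy => by rw [St.bad, hq]; exact hp.par z c j (by omega) b2 y hy⟩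
  · rw [eL] at a
    rw [eG]
    exact h.K j hj z a (bn b)
  · rw [eL]; exact h.last
  · rw [eG, eL] at a
    rw [eL]
    rcases (bi z).1 b with c | c
    · exact tr (h.Ti j hj z a c)
    · have d := (gp j hj z a).2
      exact tn (by omega)
        (fun y hy i b1 b2 => (hp.em z c j (by omega) d y hy).2 i b1 (by omega))
        fun y hy i b1 b2 => (hp.tl z c j (by omega) d y hy).2 i b1 (by omega)
  · rw [eL]
    cases c : (s.2.2.get j).2.2.1.get C
    · exact tn (by omega)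
        (fun y hy i b1 b2 => (hp.cem j (by omega) C a c y hy).2 i b1 (by omega))
        fun y hy i b1 b2 => (hp.ctl j (by omega) C a c y hy).2 i b1 (by omega)
    · exact tr (h.Tc j hj C c)
  · rcases Nat.lt_or_ge z s.nx with d | d
    · obtain ⟨o1, -, -, o4⟩ := old z d
      rw [o1]
      exact tr (h.Tr z d (bn b) (by rwa [o4] at c))
    · obtain ⟨n1, -, -, n2, n3, -⟩ := new z a d
      refine tn (Nat.zero_le _) (fun y hy i b1 _ => ?_) fun y hy i b1 _ => ?_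
      · rw [List.mem_singleton.1 hy]
        exact (hp.emE z n1).2 i b1
      · rcases List.mem_pair.1 hy with rfl | rfl
        exacts [(hp.tch _ n2).2 i b1, (hp.tch _ n3).2 i b1]
  · rw [eR, eL]
    exact ⟨(h.rem j hj).1, fun w hw => ((h.rem j hj).2 w hw).imp_right
      fun ⟨c, a, b⟩ => ⟨c, a, bm _ b⟩⟩

/-- A real item is removed. -/
def kill (p : ℕ × St × ℕ) : M (List ℕ × St) := do
  let n ← num (p.1 + 1)
  let r ← pass n p.2.1.1.1 p.2.1.2.2 p.2.1.2.1.1 [p.2.2]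
    [(p.2.1.1.1.get p.2.2).1, (p.2.1.1.1.get p.2.2).2.1] []
  pure (r.2.bd, (p.2.1.1, (r.2.bad, p.2.1.2.1.2), r.1))

/-- A real item is created. -/
def add (p : ℕ × St × ℕ × RA) : M St := do
  let n ← num (p.1 + 1)
  let x ← num (p.2.1.1.2.2 + 1)
  let r ← pass n p.2.1.1.1 p.2.1.2.2 p.2.1.2.1.1 [] [p.2.2.2.1, p.2.2.2.2.1] [p.2.1.1.2.2]
  pure ((p.2.1.1.1.set p.2.1.1.2.2 p.2.2.2, p.2.1.1.2.1.set p.2.1.1.2.2 [], x),
    (p.2.1.2.1.1, p.2.1.2.1.2.1.set p.2.1.1.2.2 0, p.2.1.2.1.2.2.set p.2.1.1.2.2 (some p.2.2.1)),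
    r.1)

theorem impl_kill : Impl kill := by
  unfold kill
  fun_prop

theorem impl_add : Impl add := by
  unfold add
  fun_prop

theorem tbB_of {π : Par} {s : St} {top : ℕ} (h : SI π s top) :
    (∀ i < π.Lm + 1, ∀ y, ∀ z ∈ (s.2.2.get i).1.par y, i + 1 ≤ s.dep z) ∧
    ∀ j ≤ π.Lm, TbB (s.2.2.get j).1 π.γ (π.p j) :=
  ⟨fun i hi y z a => (h.P i (by omega) z (((h.lv i (by omega)).par y).2 z a)).2.1.ge,
    fun j hj => let a := h.lv j hj
      ⟨fun z => (a.par z).1, a.tl, a.cls, a.ctl, fun z => (a.em z).1, fun z => (a.cem z).1⟩⟩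

/-- **The block EVENT.** -/
theorem event_ok : EVENT := by
  refine ⟨kill, add, impl_kill, impl_add, fun c π s hπ h hB => ⟨fun z hz hb hr => ?_,
    fun e a a1 a2 a3 a4 a5 => ?_⟩⟩
  · simp only [kill, Tri_bind, Tri_num, Tri_pure]
    refine ⟨by omega, (pass_tri (dep := s.dep) hπ (tbB_of h).1 (tbB_of h).2 (by simp) (by simp)
      (by simp)).mono ?_⟩
    rintro r t ⟨h1, h2, h3⟩
    refine ⟨⟨si_pass h h1 rfl le_rfl (by simpa using hz) (fun _ _ => ⟨rfl, rfl, rfl, rfl⟩)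
      (fun y b1 b2 => absurd b1 (not_lt.2 b2)) (by simp) h.fresh, h1.same, h2⟩, trivial, trivial,
      h1.bad_iff, h1.zs_bd z (by simp) (by simpa using hb), fun y hy => ?_, by omega⟩
    rcases h1.orig y hy with b | ⟨j, hj, x, b⟩
    · exact Or.inr (List.mem_singleton.1 b)
    · exact Or.inl (h.P j (by omega) y (((h.lv j (by omega)).par x).2 y b)).2.2
  · simp only [add, Tri_bind, Tri_num, Tri_pure]
    refine ⟨by omega, by change s.nx + 1 ≤ _; omega, (pass_tri (dep := s.dep) hπ (tbB_of h).1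
      (tbB_of h).2 (by simp) (by simp) (by simp)).mono ?_⟩
    rintro r t ⟨h1, h2, h3⟩
    have e1 : s.2.1.1 = r.2.bad := Arr.ext (funext fun y => by
      have := h1.bad_iff y
      rw [h1.nil rfl] at this
      exact Bool.eq_iff_iff.2 (by simpa using this.symm))
    refine ⟨⟨si_pass h h1 e1 (Nat.le_succ _) (by simp) (fun y hy => ?_) (fun y b1 b2 => ?_)
      (fun y hy => ?_) (fun y hy => ?_), h1.same, h2⟩, trivial, trivial, by omega⟩
    · exact ⟨Arr.get_set_ne _ hy.ne _, Arr.get_set_ne _ hy.ne _, Arr.get_set_ne _ hy.ne _,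
        Arr.get_set_ne _ hy.ne _⟩
    · obtain rfl : y = s.nx := Nat.le_antisymm (Nat.lt_succ_iff.1 b1) b2
      simp [St.it, St.cs, St.re, a1, a2, a3, a4, a5]
    · rw [List.mem_singleton.1 hy]
      exact ⟨Nat.lt_succ_self _, Arr.get_set_self _ _ _⟩
    · have b : s.nx + 1 ≤ y := hy
      exact (Arr.get_set_ne _ (by omega : y ≠ s.nx) _).trans (h.fresh y (by omega))

end Vale.Agent.P305EV
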