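import Vale.Agent.P305E.Arr

/-!
# Two list programs for events: look-up along a list and marking
-/

namespace Vale.Agent.P305EV

open Vale.Agent.P305E

/-- All entries of the lists `a x`, `x ∈ l`. -/
def flat (a : Arr (List ℕ)) (l : List ℕ) : M (List ℕ) := mapP a.get l >>= flattenP

@[fun_prop] theorem impl_flat {α : Type} [Rep α] {a : α → Arr (List ℕ)} {l : α → List ℕ}
    (ha : Pure a) (hl : Pure l) : Impl fun x => flat (a x) (l x) := by
  unfold flat
  fun_prop

@[simp] theorem Tri_flat {c : Cx} (a : Arr (List ℕ)) (l : List ℕ) (Q : List ℕ → ℕ → Prop) :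
    Tri c (flat a l) Q ↔ Q (l.flatMap a.get) (2 * l.length + (l.flatMap a.get).length) := by
  simp only [flat, Tri_bind, Tri_mapP, Tri_flattenP, List.length_map, List.flatMap_def]
  rw [show l.length + (l.length + (l.map a.get).flatten.length) =
    2 * l.length + (l.map a.get).flatten.length by omega]

theorem length_flat_le {f : ℕ → List ℕ} {g : ℕ} (h : ∀ x, (f x).length ≤ g) (l : List ℕ) :
    (l.flatMap f).length ≤ g * l.length := by
  induction l with
  | nil => simp
  | cons x l ih =>
    have := h x
    simp only [List.flatMap_cons, List.length_append, List.length_cons]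
    nlinarith

/-- One step of the marking: an unmarked `y` is marked and recorded. -/
def mk1 (s : Arr Bool × List ℕ) (y : ℕ) : Arr Bool × List ℕ :=
  if s.1.get y = true then s else (s.1.set y true, y :: s.2)

/-- The marking as a function: new flags and the list of the newly marked entries. -/
def mkF (fl : Arr Bool) (l : List ℕ) : Arr Bool × List ℕ := l.foldl mk1 (fl, [])

/-- Mark all entries of `l`. -/
def mark (fl : Arr Bool) (l : List ℕ) : M (Arr Bool × List ℕ) := foldP mk1 (fl, []) l

@[fun_prop] theorem impl_mark {α : Type} [Rep α] {fl : α → Arr Bool} {l : α → List ℕ}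
    (ha : Pure fl) (hl : Pure l) : Impl fun x => mark (fl x) (l x) := by
  unfold mark mk1
  fun_prop

@[simp] theorem Tri_mark {c : Cx} (fl : Arr Bool) (l : List ℕ)
    (Q : Arr Bool × List ℕ → ℕ → Prop) : Tri c (mark fl l) Q ↔ Q (mkF fl l) l.length := by
  simp only [mark, Tri_foldP, mkF]

/-- What the marking does. -/
structure Mk (fl : Arr Bool) (l : List ℕ) (r : Arr Bool × List ℕ) : Prop where
  get : ∀ y, r.1.get y = true ↔ fl.get y = true ∨ y ∈ l
  mem : ∀ y, y ∈ r.2 ↔ y ∈ l ∧ fl.get y = false
  nodup : r.2.Nodup
  len : r.2.length ≤ l.length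

theorem mk_mkF (fl : Arr Bool) (l : List ℕ) : Mk fl l (mkF fl l) := by
  unfold mkF
  induction l using List.reverseRecOn with
  | nil => exact ⟨by simp, by simp, by simp, by simp⟩
  | append_singleton l x ih =>
    rw [List.foldl_append, List.foldl_cons, List.foldl_nil]
    generalize l.foldl mk1 (fl, []) = r at ih
    unfold mk1
    split_ifs with h
    · refine ⟨fun y => ?_, fun y => ?_, ih.nodup, by have := ih.len; simp; omega⟩
      · rw [ih.get]
        simp only [List.mem_append, List.mem_singleton]
        constructor
        · tauto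
        · rintro (h' | h' | rfl)
          · exact Or.inl h'
          · exact Or.inr h'
          · exact (ih.get _).1 h
      · rw [ih.mem]
        simp only [List.mem_append, List.mem_singleton]
        constructor
        · tauto
        · rintro ⟨h' | rfl, h2⟩
          · exact ⟨h', h2⟩
          · rcases (ih.get _).1 h with h3 | h3
            · simp [h2] at h3
            · exact ⟨h3, h2⟩
    · have h1 : fl.get x = false := by
        cases h2 : fl.get x
        · rfl
        · exact absurd ((ih.get x).2 (Or.inl h2)) h
      have h2 : x ∉ l := fun h2 => h ((ih.get x).2 (Or.inr h2))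
      refine ⟨fun y => ?_, fun y => ?_, ?_, by have := ih.len; simp; omega⟩
      · simp only [Arr.get_set, List.mem_append, List.mem_singleton]
        split_ifs with e
        · simp [e]
        · rw [ih.get]
          tauto
      · simp only [List.mem_cons, ih.mem, List.mem_append, List.not_mem_nil, or_false]
        constructor
        · rintro (rfl | h')
          · exact ⟨Or.inr rfl, h1⟩
          · exact ⟨Or.inl h'.1, h'.2⟩
        · rintro ⟨h' | h', h3⟩
          · exact Or.inr ⟨h', h3⟩
          · exact Or.inl h'
      · exact List.nodup_cons.2 ⟨fun h3 => h2 ((ih.mem x).1 h3).1, ih.nodup⟩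

theorem Mk.get' {fl : Arr Bool} {l : List ℕ} {r : Arr Bool × List ℕ} (h : Mk fl l r) (y : ℕ) :
    r.1.get y = true ↔ fl.get y = true ∨ y ∈ r.2 := by
  rw [h.get, h.mem]
  cases fl.get y <;> simp

end Vale.Agent.P305EV
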