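import Vale.Agent.P305EV.Fire
import Vale.Agent.P305Y.Stub

/-!
# The event: one pass over the levels (state of `P305Y`)
-/

namespace Vale.Agent.P305EV

open Vale.Agent.P305E Vale.Agent.P305M Vale.Agent.P305Y

/-- The event at the level `j`. -/
def stepL (it : Arr RA) (q : Arr Lv × Ps) (j : ℕ) : M (Arr Lv × Ps) :=
  fire it (q.1.get j).1 (q.1.get j).2.2.1 (q.1.get j).2.2.2.1 q.2 >>= fun o =>
    pure (q.1.set j ((q.1.get j).1, (q.1.get j).2.1, o.1, o.2.1, (q.1.get j).2.2.2.2), o.2.2)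

@[fun_prop] theorem impl_stepL :
    Impl fun p : Arr RA × (Arr Lv × Ps) × ℕ => stepL p.1 p.2.1 p.2.2 := by
  unfold stepL
  fun_prop

/-- The items `zs` become bad, the vertices `T` are touched at all levels `< n`, the items `E` are
appended to all pending lists; all consequences are drawn. -/
def pass (n : ℕ) (it : Arr RA) (lv : Arr Lv) (bad : Arr Bool) (zs T E : List ℕ) :
    M (Arr Lv × Ps) :=
  mark bad zs >>= fun r => iterM (stepL it) (lv, ⟨r.1, r.2, T, E⟩) n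

@[fun_prop] theorem impl_pass {α : Type} [Rep α] {n : α → ℕ} {it : α → Arr RA} {lv : α → Arr Lv}
    {bad : α → Arr Bool} {zs T E : α → List ℕ} (h1 : Pure n) (h2 : Pure it) (h3 : Pure lv)
    (h4 : Pure bad) (h5 : Pure zs) (h6 : Pure T) (h7 : Pure E) :
    Impl fun x => pass (n x) (it x) (lv x) (bad x) (zs x) (T x) (E x) := by
  unfold pass
  fun_prop

/-- The vertex `u` is touched at the level `j`. -/
def Tc (lv : Arr Lv) (j u : ℕ) : Prop := ∀ C ∈ (lv.get j).1.cls u, (lv.get j).2.2.1.get C = true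

/-- The effect of the pass on the levels below `k`. -/
structure PsOK (k : ℕ) (dep : ℕ → ℕ) (it : Arr RA) (lv : Arr Lv) (bad : Arr Bool)
    (zs T E : List ℕ) (lv' : Arr Lv) (s : Ps) : Prop where
  out : ∀ j, k ≤ j → lv'.get j = lv.get j
  same : ∀ j, (lv'.get j).1 = (lv.get j).1 ∧ (lv'.get j).2.1 = (lv.get j).2.1 ∧
    (lv'.get j).2.2.2.2 = (lv.get j).2.2.2.2
  bad_iff : ∀ z, s.bad.get z = true ↔ bad.get z = true ∨ z ∈ s.bd
  zs_bd : ∀ z ∈ zs, bad.get z = false → z ∈ s.bd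
  nil : zs = [] → s.bd = []
  orig : ∀ z ∈ s.bd, z ∈ zs ∨ ∃ j < k, ∃ y, z ∈ (lv.get j).1.par y
  brk : ∀ j C, (lv.get j).2.2.1.get C = true → (lv'.get j).2.2.1.get C = true
  pend : ∀ j z, z ∈ (lv.get j).2.2.2.1 → z ∈ (lv'.get j).2.2.2.1
  pend' : ∀ j z, z ∈ (lv'.get j).2.2.2.1 → z ∈ (lv.get j).2.2.2.1 ∨ z ∈ E ∨
    ∃ i ≤ j, ∃ y, z ∈ (lv.get i).1.em y ∨ z ∈ (lv.get i).1.cem y
  emo : ∀ z ∈ s.em, z ∈ E ∨ ∃ i < k, ∃ y, z ∈ (lv.get i).1.em y ∨ z ∈ (lv.get i).1.cem y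
  par : ∀ z ∈ s.bd, ∀ j < k, dep z ≤ j → ∀ p ∈ (lv.get j).1.par z, s.bad.get p = true
  ends : ∀ z ∈ s.bd, ∀ u, u = (it.get z).1 ∨ u = (it.get z).2.1 → u ∈ s.tc ∧
    ∀ j < k, dep z ≤ j → Tc lv' j u
  tl : ∀ z ∈ s.bd, ∀ i < k, dep z ≤ i + 1 → ∀ u ∈ (lv.get i).1.tl z, u ∈ s.tc ∧
    ∀ j < k, i < j → Tc lv' j u
  em : ∀ z ∈ s.bd, ∀ i < k, dep z ≤ i + 1 → ∀ y ∈ (lv.get i).1.em z, y ∈ s.em ∧
    ∀ j < k, i ≤ j → y ∈ (lv'.get j).2.2.2.1
  ctl : ∀ i < k, ∀ C, (lv'.get i).2.2.1.get C = true → (lv.get i).2.2.1.get C = false →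
    ∀ u ∈ (lv.get i).1.ctl C, u ∈ s.tc ∧ ∀ j < k, i < j → Tc lv' j u
  cem : ∀ i < k, ∀ C, (lv'.get i).2.2.1.get C = true → (lv.get i).2.2.1.get C = false →
    ∀ y ∈ (lv.get i).1.cem C, y ∈ s.em ∧ ∀ j < k, i ≤ j → y ∈ (lv'.get j).2.2.2.1
  tch : ∀ u ∈ T, u ∈ s.tc ∧ ∀ j < k, Tc lv' j u
  emE : ∀ y ∈ E, y ∈ s.em ∧ ∀ j < k, y ∈ (lv'.get j).2.2.2.1

variable {dep : ℕ → ℕ} {it : Arr RA} {lv : Arr Lv} {bad : Arr Bool} {zs T E : List ℕ}

theorem PsOK.zero (hT : ∀ z ∈ zs, (it.get z).1 ∈ T ∧ (it.get z).2.1 ∈ T) :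
    PsOK 0 dep it lv bad zs T E lv ⟨(mkF bad zs).1, (mkF bad zs).2, T, E⟩ := by
  have h := mk_mkF bad zs
  refine ⟨fun _ _ => rfl, fun _ => ⟨rfl, rfl, rfl⟩, h.get', fun z hz hb => (h.mem z).2 ⟨hz, hb⟩,
    fun e => ?_, fun z hz => Or.inl ((h.mem z).1 hz).1, fun _ _ h => h, fun _ _ h => h,
    fun _ _ h => Or.inl h, fun _ h => Or.inl h, ?_, fun z hz u hu => ⟨?_, ?_⟩, ?_, ?_, ?_, ?_, ?_,
    ?_⟩
  · subst e; rfl
  · simp
  · have := hT z ((h.mem z).1 hz).1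
    rcases hu with rfl | rfl
    exacts [this.1, this.2]
  all_goals simp

theorem PsOK.succ {n k : ℕ} {lv' : Arr Lv} {s s' : Ps} {b : Arr Bool} {pe : List ℕ}
    (hD : ∀ i < n, ∀ y, ∀ z ∈ (lv.get i).1.par y, i + 1 ≤ dep z) (hk : k < n)
    (h : PsOK k dep it lv bad zs T E lv' s)
    (hl : FireOK it (lv'.get k).1 (lv'.get k).2.2.1 (lv'.get k).2.2.2.1 s b pe s') :
    PsOK (k + 1) dep it lv bad zs T E
      (lv'.set k ((lv'.get k).1, (lv'.get k).2.1, b, pe, (lv'.get k).2.2.2.2)) s' := by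
  have e0 : lv'.get k = lv.get k := h.out k le_rfl
  rw [e0] at hl ⊢
  obtain ⟨nb, e1, -, n2, n3⟩ := hl.bd
  generalize hx : lv'.set k ((lv.get k).1, (lv.get k).2.1, b, pe, (lv.get k).2.2.2.2) = x
  have ne : ∀ j, j ≠ k → x.get j = lv'.get j := fun j hj => hx ▸ Arr.get_set_ne _ hj _
  have lo : ∀ j < k, x.get j = lv'.get j := fun j hj => ne j hj.ne
  have at_ : x.get k = ((lv.get k).1, (lv.get k).2.1, b, pe, (lv.get k).2.2.2.2) :=
    hx ▸ Arr.get_set_self _ _ _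
  have sb : ∀ z ∈ s.bd, z ∈ s'.bd := fun z hz => e1 ▸ List.mem_append_right _ hz
  have se : ∀ z ∈ s.em, z ∈ s'.em := fun z hz => (hl.em z).2 (Or.inl hz)
  have tk : ∀ u ∈ s.tc, Tc x k u := fun u hu C hC => by
    rw [at_] at hC ⊢
    exact (hl.brk_iff C).2 (Or.inr ⟨u, hu, hC⟩)
  have pk : ∀ y ∈ s'.em, y ∈ (x.get k).2.2.2.1 := fun y hy => by
    rw [at_]
    exact hl.pend ▸ List.mem_append_left _ hy
  have up : ∀ {u} {p : ℕ → Prop}, (u ∈ s.tc ∧ ∀ j < k, p j → Tc lv' j u) →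
      u ∈ s'.tc ∧ ∀ j < k + 1, p j → Tc x j u := by
    intro u p hu
    refine ⟨hl.tc u hu.1, fun j h2 h1 => ?_⟩
    rcases Nat.lt_succ_iff_lt_or_eq.1 h2 with h3 | rfl
    · rw [Tc, lo j h3]; exact hu.2 j h3 h1
    · exact tk u hu.1
  have ue : ∀ {y} {p : ℕ → Prop}, (y ∈ s.em ∧ ∀ j < k, p j → y ∈ (lv'.get j).2.2.2.1) →
      y ∈ s'.em ∧ ∀ j < k + 1, p j → y ∈ (x.get j).2.2.2.1 := by
    intro y p hy
    refine ⟨se y hy.1, fun j h2 h1 => ?_⟩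
    rcases Nat.lt_succ_iff_lt_or_eq.1 h2 with h3 | rfl
    · rw [lo j h3]; exact hy.2 j h3 h1
    · exact pk y (se y hy.1)
  have nbD : ∀ z ∈ nb, k + 1 ≤ dep z := fun z hz => by
    obtain ⟨⟨y, _, hy⟩, _⟩ := (n2 z).1 hz
    exact hD k hk y z hy
  have cs : ∀ z ∈ s'.bd, z ∈ nb ∨ z ∈ s.bd := fun z hz => List.mem_append.1 (e1 ▸ hz)
  have eo : ∀ z ∈ s'.em, z ∈ E ∨ ∃ i < k + 1, ∃ y,
      z ∈ (lv.get i).1.em y ∨ z ∈ (lv.get i).1.cem y := fun z hz => by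
    rcases (hl.em z).1 hz with h1 | ⟨y, -, h1⟩ | ⟨y, -, -, h1⟩
    · exact (h.emo z h1).imp_right fun ⟨i, hi, a⟩ => ⟨i, by omega, a⟩
    · exact Or.inr ⟨k, by omega, y, Or.inl h1⟩
    · exact Or.inr ⟨k, by omega, y, Or.inr h1⟩
  refine ⟨fun j hj => ?_, fun j => ?_, fun z => ?_, fun z hz hb => sb z (h.zs_bd z hz hb),
    fun e => ?_, fun z hz => ?_, fun j C hC => ?_, fun j z hz => ?_, fun j z hz => ?_, eo,
    fun z hz j hj hd p hp => ?_, fun z hz u hu => ?_, fun z hz i hi hd u hu => ?_,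
    fun z hz i hi hd y hy => ?_, fun i hi C h1 h2 u hu => ?_, fun i hi C h1 h2 y hy => ?_,
    fun u hu => ?_, fun y hy => ?_⟩
  · rw [ne j (by omega), h.out j (by omega)]
  · by_cases e : j = k
    · subst e; rw [at_]; exact ⟨rfl, rfl, rfl⟩
    · rw [ne j e]; exact h.same j
  · rw [hl.bad, e1, List.mem_append, n2, ← or_assoc, or_right_comm, ← h.bad_iff]
    cases s.bad.get z <;> simp
  · rw [e1, h.nil e, List.append_nil, List.eq_nil_iff_forall_not_mem]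
    intro z hz
    obtain ⟨⟨y, hy, -⟩, -⟩ := (n2 z).1 hz
    rw [h.nil e] at hy
    exact List.not_mem_nil hy
  · rcases cs z hz with h1 | h1
    · obtain ⟨⟨y, -, h3⟩, _⟩ := (n2 z).1 h1
      exact Or.inr ⟨k, by omega, y, h3⟩
    · exact (h.orig z h1).imp_right fun ⟨j, hj, a⟩ => ⟨j, by omega, a⟩
  · by_cases e : j = k
    · subst e; rw [at_]; exact (hl.brk_iff C).2 (Or.inl hC)
    · rw [ne j e]; exact h.brk j C hC
  · by_cases e : j = k
    · subst e; rw [at_]; exact hl.pend ▸ List.mem_append_right _ hz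
    · rw [ne j e]; exact h.pend j z hz
  · by_cases e : j = k
    · subst e
      rw [at_] at hz
      rcases List.mem_append.1 (hl.pend ▸ hz : z ∈ s'.em ++ (lv.get j).2.2.2.1) with h1 | h1
      · exact Or.inr ((eo z h1).imp_right fun ⟨i, hi, a⟩ => ⟨i, by omega, a⟩)
      · exact Or.inl h1
    · rw [ne j e] at hz; exact h.pend' j z hz
  · rcases cs z hz with h1 | h1
    · have := nbD z h1
      omega
    · rcases Nat.lt_succ_iff_lt_or_eq.1 hj with h3 | rfl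
      · exact (hl.bad p).2 (Or.inl (h.par z h1 j h3 hd p hp))
      · exact (hl.bad p).2 (Or.inr ⟨z, h1, hp⟩)
  · rcases cs z hz with h1 | h1
    · have := nbD z h1
      refine ⟨?_, fun j _ _ => by omega⟩
      rcases hu with rfl | rfl
      exacts [(n3 z h1).1, (n3 z h1).2]
    · exact up (h.ends z h1 u hu)
  · rcases Nat.lt_succ_iff_lt_or_eq.1 hi with h3 | rfl
    · rcases cs z hz with h1 | h1
      · have := nbD z h1
        omega
      · exact up (h.tl z h1 i h3 hd u hu)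
    · exact ⟨hl.tl z hz u hu, fun j _ _ => by omega⟩
  · rcases Nat.lt_succ_iff_lt_or_eq.1 hi with h3 | rfl
    · rcases cs z hz with h1 | h1
      · have := nbD z h1
        omega
      · exact ue (h.em z h1 i h3 hd y hy)
    · have a : y ∈ s'.em := (hl.em y).2 (Or.inr (Or.inl ⟨z, hz, hy⟩))
      exact ⟨a, fun j _ _ => (show j = i by omega) ▸ pk y a⟩
  · rcases Nat.lt_succ_iff_lt_or_eq.1 hi with h3 | rfl
    · rw [lo i h3] at h1
      exact up (h.ctl i h3 C h1 h2 u hu)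
    · rw [at_] at h1
      exact ⟨hl.ctl C h1 h2 u hu, fun j _ _ => by omega⟩
  · rcases Nat.lt_succ_iff_lt_or_eq.1 hi with h3 | rfl
    · rw [lo i h3] at h1
      exact ue (h.cem i h3 C h1 h2 y hy)
    · rw [at_] at h1
      have a : y ∈ s'.em := (hl.em y).2 (Or.inr (Or.inr ⟨C, h1, h2, hy⟩))
      exact ⟨a, fun j _ _ => (show j = i by omega) ▸ pk y a⟩
  · have := up (p := fun _ => True) ⟨(h.tch u hu).1, fun j hj _ => (h.tch u hu).2 j hj⟩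
    exact ⟨this.1, fun j hj => this.2 j hj trivial⟩
  · have := ue (p := fun _ => True) ⟨(h.emE y hy).1, fun j hj _ => (h.emE y hy).2 j hj⟩
    exact ⟨this.1, fun j hj => this.2 j hj trivial⟩

theorem ev_arith {g p k : ℕ} (hg : 1 ≤ g) (hp : 1 ≤ p) :
    2 * p * (g + 2) ^ (3 * k) + p * ((g + 2) ^ 2 * ((g + 2) ^ (2 * k) * 3)) ≤
      2 * p * (g + 2) ^ (3 * (k + 1)) ∧
    2 * p * (g + 2) ^ (3 * k) + 8 * ((p + 1) * ((g + 2) ^ 2 * ((g + 2) ^ (2 * k) * 3))) + 1 ≤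
      10 * (2 * p * (g + 2) ^ (3 * (k + 1))) := by
  have a1 : (g + 2) ^ 2 * ((g + 2) ^ (2 * k) * 3) ≤ (g + 2) ^ (3 * (k + 1)) := by
    have b1 : 3 ≤ (g + 2) ^ (k + 1) := le_trans (by omega) (Nat.le_self_pow (by omega) _)
    calc _ = (g + 2) ^ (2 * k + 2) * 3 := by ring
      _ ≤ (g + 2) ^ (2 * k + 2) * (g + 2) ^ (k + 1) := Nat.mul_le_mul_left _ b1
      _ = _ := by ring
  have a2 : 2 * (g + 2) ^ (3 * k) ≤ (g + 2) ^ (3 * (k + 1)) := by
    have b1 : 2 ≤ (g + 2) ^ 3 := le_trans (by omega) (Nat.le_self_pow (by omega) _)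
    calc _ ≤ (g + 2) ^ 3 * (g + 2) ^ (3 * k) := Nat.mul_le_mul_right _ b1
      _ = _ := by ring
  have a3 : 1 ≤ (g + 2) ^ (3 * (k + 1)) := Nat.one_le_pow _ _ (by omega)
  generalize (g + 2) ^ 2 * ((g + 2) ^ (2 * k) * 3) = x at *
  generalize (g + 2) ^ (3 * k) = y at *
  generalize (g + 2) ^ (3 * (k + 1)) = z at *
  have c1 := Nat.mul_le_mul_left p a1
  have c2 := Nat.mul_le_mul_left p a2
  have c3 := Nat.mul_le_mul_right z hp
  constructor <;> nlinarith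

theorem pass_tri {c : Cx} {π : Par} (hπ : π.OK)
    (hD : ∀ i < π.Lm + 1, ∀ y, ∀ z ∈ (lv.get i).1.par y, i + 1 ≤ dep z)
    (ht : ∀ j ≤ π.Lm, TbB (lv.get j).1 π.γ (π.p j))
    (hT : ∀ z ∈ zs, (it.get z).1 ∈ T ∧ (it.get z).2.1 ∈ T) (h3 : zs.length + T.length ≤ 3)
    (h1 : E.length ≤ 1) :
    Tri c (pass (π.Lm + 1) it lv bad zs T E) fun r t =>
      PsOK (π.Lm + 1) dep it lv bad zs T E r.1 r.2 ∧
      (∀ j ≤ π.Lm, (r.1.get j).2.2.2.1.length ≤ (lv.get j).2.2.2.1.length + evE π j) ∧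
      t + r.2.bd.length + 3 ≤ evT π := by
  simp only [pass, Tri_bind, Tri_mark]
  have hp : ∀ j, 1 ≤ π.p j := fun j => hπ.p.trans (hπ.pm (Nat.zero_le j))
  have mo : ∀ j ≤ π.Lm, evE π j ≤ evE π π.Lm := fun j hj =>
    Nat.mul_le_mul (Nat.mul_le_mul_left _ (hπ.pm hj)) (Nat.pow_le_pow_right (by omega) (by omega))
  refine (Tri.iterM (fun k (r : Arr Lv × Ps) t => PsOK k dep it lv bad zs T E r.1 r.2 ∧
    r.2.bd.length + r.2.tc.length ≤ (π.γ + 2) ^ (2 * k) * 3 ∧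
    r.2.em.length ≤ 2 * π.p k * (π.γ + 2) ^ (3 * k) ∧
    (∀ j < k, (r.1.get j).2.2.2.1.length ≤ (lv.get j).2.2.2.1.length + evE π j) ∧
    t ≤ k * (10 * evE π π.Lm)) ⟨PsOK.zero hT, ?_, ?_, by simp, by simp⟩ ?_).mono ?_
  · have := (mk_mkF bad zs).len
    simp only [Nat.mul_zero, pow_zero, one_mul]
    omega
  · have := hp 0
    simp only [Nat.mul_zero, pow_zero, mul_one]
    omega
  · rintro k r t hk ⟨g1, g2, g3, g4, g5⟩
    obtain ⟨p1, p2⟩ := ev_arith (k := k) hπ.γ (hp k)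
    have p3 := mo k (by omega)
    rw [stepL, Tri_bind]
    refine (fire_tri (g := π.γ) (P := π.p k) (by rw [g1.out k le_rfl]; exact ht k (by omega))
      g2 g3).mono ?_
    rintro o t' ⟨f1, f2, f3, f4⟩
    have p4 : o.2.2.em.length ≤ evE π k := f3.trans p1
    refine ⟨g1.succ hD hk f1, f2.trans (le_of_eq (by ring)), p4.trans
      (Nat.mul_le_mul_right _ (Nat.mul_le_mul_left _ (hπ.pm (Nat.le_succ k)))), fun j hj => ?_, ?_⟩
    · rcases Nat.lt_succ_iff_lt_or_eq.1 hj with a | rfl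
      · simp only [Arr.get_set_ne _ a.ne]
        exact g4 j a
      · simp only [Arr.get_set_self, f1.pend, List.length_append, g1.out j le_rfl]
        omega
    · rw [Nat.succ_mul]
      unfold evE at p3 g5 ⊢
      omega
  · rintro r t ⟨g1, g2, -, g4, g5⟩
    refine ⟨g1, fun j hj => g4 j (by omega), ?_⟩
    have a1 : (π.γ + 2) ^ (2 * (π.Lm + 1)) * 3 ≤ 3 * evE π π.Lm := by
      have b1 : (π.γ + 2) ^ (2 * (π.Lm + 1)) ≤ (π.γ + 2) ^ (3 * (π.Lm + 1)) :=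
        Nat.pow_le_pow_right (by omega) (by omega)
      have b2 := Nat.mul_le_mul_right ((π.γ + 2) ^ (3 * (π.Lm + 1))) (hp π.Lm)
      unfold evE
      nlinarith
    have a2 : 1 ≤ (π.γ + 2) ^ (2 * (π.Lm + 1)) := Nat.one_le_pow _ _ (by omega)
    unfold evT
    nlinarith

end Vale.Agent.P305EV
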